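import Vale.Agent.Lib.P040.Drawing

namespace Vale.Agent.Results.P040.CollinearDrawing

/-- Zarankiewicz's bound for every straight-line drawing of `K_{m,n}` with one class on a line.
The first class is placed at the distinct points `(x i, 0)`, the second at distinct points `b j`;
no vertex lies in the interior of an edge and no three edges pass through a common interior
point. Then the drawing has at least `⌊m/2⌋⌊(m-1)/2⌋⌊n/2⌋⌊(n-1)/2⌋` crossing points. -/
theorem result (m n : ℕ) (x : Fin m → ℝ) (b : Fin n → ℝ × ℝ)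
    (hx : Function.Injective x) (hbinj : Function.Injective b)
    (hab : ∀ i j, b j ≠ (x i, 0))
    (hEA : ∀ i k j, ((x k, 0) : ℝ × ℝ) ∉ openSegment ℝ ((x i, 0) : ℝ × ℝ) (b j))
    (hEB : ∀ i j l, b l ∉ openSegment ℝ ((x i, 0) : ℝ × ℝ) (b j))
    (h3 : ∀ (z : ℝ × ℝ) (e f g : Fin m × Fin n), e ≠ f → e ≠ g → f ≠ g →
      z ∈ openSegment ℝ ((x e.1, 0) : ℝ × ℝ) (b e.2) →
      z ∈ openSegment ℝ ((x f.1, 0) : ℝ × ℝ) (b f.2) →
      z ∉ openSegment ℝ ((x g.1, 0) : ℝ × ℝ) (b g.2)) :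
    (((m / 2) * ((m - 1) / 2) * ((n / 2) * ((n - 1) / 2)) : ℕ) : ℕ∞) ≤
      Set.encard {z : ℝ × ℝ | ∃ e f : Fin m × Fin n, e ≠ f ∧
        z ∈ openSegment ℝ ((x e.1, 0) : ℝ × ℝ) (b e.2) ∧
        z ∈ openSegment ℝ ((x f.1, 0) : ℝ × ℝ) (b f.2)} :=
  Vale.Agent.Lib.P040.drawing_points m n x b hx hbinj hab hEA hEB h3

end Vale.Agent.Results.P040.CollinearDrawing
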