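import Vale.Agent.Lib.P040.TP.Gen.MainAll

namespace Vale.Agent.Results.P040.TwoPageAll

/-- Zarankiewicz's bound for all two-page drawings of `K_{m,n}`, for every `m` and every `n`.
The `m` vertices of the first class sit at the points `r i` of a line (the spine), the `n`
vertices of the second class at the points `b j`, all `m + n` points distinct, and the edge
`(i, j)` is drawn in the half-plane `page i j`. Two edges without a common end point, drawn in
the same half-plane, cross as soon as their end points interleave on the spine (exactly one end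
point of the second edge lies strictly between the end points of the first). At least
`⌊m/2⌋⌊(m-1)/2⌋⌊n/2⌋⌊(n-1)/2⌋` unordered pairs of edges are of this kind. -/
theorem result (m n : ℕ) (r : Fin m → ℝ) (b : Fin n → ℝ)
    (page : Fin m → Fin n → Bool) (hr : Function.Injective r) (hb : Function.Injective b)
    (hrb : ∀ i j, r i ≠ b j) :
    (m / 2) * ((m - 1) / 2) * ((n / 2) * ((n - 1) / 2)) ≤
      Set.ncard {p : (Fin m × Fin n) × (Fin m × Fin n) |
        p.1.1 < p.2.1 ∧ p.1.2 ≠ p.2.2 ∧ page p.1.1 p.1.2 = page p.2.1 p.2.2 ∧
          ((min (r p.1.1) (b p.1.2) < r p.2.1 ∧ r p.2.1 < max (r p.1.1) (b p.1.2)) ↔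
            ¬ (min (r p.1.1) (b p.1.2) < b p.2.2 ∧ b p.2.2 < max (r p.1.1) (b p.1.2)))} := by
  have h := Vale.Agent.Lib.P040.TP.Gen.twoPage_all m n r b page hr hb hrb
  rw [Nat.mul_comm]
  exact h

end Vale.Agent.Results.P040.TwoPageAll
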