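import Vale.Agent.Lib.P040.TP.Exact.Main
import Vale.Agent.Lib.P040.Drawing
import Vale.Agent.Lib.P040.CollinearClass

namespace Vale.Agent.Results.P040.TwoPageAndCollinear

/-- Zarankiewicz's bound `⌊m/2⌋⌊(m-1)/2⌋⌊n/2⌋⌊(n-1)/2⌋` for two classes of drawings of
`K_{m,n}`, for every `m` and every `n`, in one statement.

First part (two-page drawings). A two-page drawing of `K_{m,n}` is given by points `r i` (the
`m` vertices of the first class) and `b j` (the `n` vertices of the second class) of a line, all
`m + n` points distinct, and a choice `page i j` of one of the two half-planes for each edge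
`(i, j)`. Two edges without a common end point, drawn in the same half-plane, cross as soon as
their end points interleave on the line (exactly one end point of the second edge lies strictly
between the end points of the first); the inner set is the set of these unordered pairs of
edges, and `c` runs over the numbers of such pairs of all two-page drawings. The bound is the
least of these numbers: it is attained by some two-page drawing, and no two-page drawing has
fewer.

Second part (straight-line drawings with one class on a line). The first class is placed at the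
distinct points `(x i, 0)`, the second at distinct points `b j`; no vertex lies in the interior
of an edge and no three edges pass through a common interior point. Then the drawing has at
least that many crossing points.

Third part (the same class, counted by pairs of edges). The second class is placed at points
`b j` off the horizontal axis, with no `(x i, 0)` collinear with two of the `b j`. Then at least
that many unordered pairs of vertex-disjoint edges have crossing open segments. -/
theorem result :
    (∀ m n : ℕ,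
      IsLeast {c : ℕ | ∃ (r : Fin m → ℝ) (b : Fin n → ℝ) (page : Fin m → Fin n → Bool),
          Function.Injective r ∧ Function.Injective b ∧ (∀ i j, r i ≠ b j) ∧
          c = Set.ncard {p : (Fin m × Fin n) × (Fin m × Fin n) |
            p.1.1 < p.2.1 ∧ p.1.2 ≠ p.2.2 ∧ page p.1.1 p.1.2 = page p.2.1 p.2.2 ∧
              ((min (r p.1.1) (b p.1.2) < r p.2.1 ∧ r p.2.1 < max (r p.1.1) (b p.1.2)) ↔
                ¬ (min (r p.1.1) (b p.1.2) < b p.2.2 ∧
                  b p.2.2 < max (r p.1.1) (b p.1.2)))}}
        ((m / 2) * ((m - 1) / 2) * ((n / 2) * ((n - 1) / 2)))) ∧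
    (∀ (m n : ℕ) (x : Fin m → ℝ) (b : Fin n → ℝ × ℝ),
      Function.Injective x → Function.Injective b →
      (∀ i j, b j ≠ (x i, 0)) →
      (∀ i k j, ((x k, 0) : ℝ × ℝ) ∉ openSegment ℝ ((x i, 0) : ℝ × ℝ) (b j)) →
      (∀ i j l, b l ∉ openSegment ℝ ((x i, 0) : ℝ × ℝ) (b j)) →
      (∀ (z : ℝ × ℝ) (e f g : Fin m × Fin n), e ≠ f → e ≠ g → f ≠ g →
        z ∈ openSegment ℝ ((x e.1, 0) : ℝ × ℝ) (b e.2) →
        z ∈ openSegment ℝ ((x f.1, 0) : ℝ × ℝ) (b f.2) →
        z ∉ openSegment ℝ ((x g.1, 0) : ℝ × ℝ) (b g.2)) →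
      (((m / 2) * ((m - 1) / 2) * ((n / 2) * ((n - 1) / 2)) : ℕ) : ℕ∞) ≤
        Set.encard {z : ℝ × ℝ | ∃ e f : Fin m × Fin n, e ≠ f ∧
          z ∈ openSegment ℝ ((x e.1, 0) : ℝ × ℝ) (b e.2) ∧
          z ∈ openSegment ℝ ((x f.1, 0) : ℝ × ℝ) (b f.2)}) ∧
    (∀ (m n : ℕ) (x : Fin m → ℝ) (b : Fin n → ℝ × ℝ),
      Function.Injective x → (∀ j, (b j).2 ≠ 0) →
      (∀ i j l, j ≠ l → ¬ Collinear ℝ {((x i, 0) : ℝ × ℝ), b j, b l}) →
      (m / 2) * ((m - 1) / 2) * ((n / 2) * ((n - 1) / 2)) ≤
        Set.ncard {q : (Fin m × Fin n) × (Fin m × Fin n) |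
          q.1.1 < q.2.1 ∧ q.1.2 ≠ q.2.2 ∧
            (openSegment ℝ ((x q.1.1, 0) : ℝ × ℝ) (b q.1.2) ∩
              openSegment ℝ ((x q.2.1, 0) : ℝ × ℝ) (b q.2.2)).Nonempty}) := by
  refine ⟨fun m n => ⟨?_, ?_⟩, ?_, ?_⟩
  · obtain ⟨r, b, page, hr, hb, hrb, h⟩ := Vale.Agent.Lib.P040.TP.Exact.twoPage_exact m n
    exact ⟨r, b, page, hr, hb, hrb, h.symm⟩
  · rintro c ⟨r, b, page, hr, hb, hrb, rfl⟩
    have h := Vale.Agent.Lib.P040.TP.Gen.twoPage_all m n r b page hr hb hrb
    rw [Nat.mul_comm]
    exact h
  · intro m n x b hx hbinj hab hEA hEB h3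
    exact Vale.Agent.Lib.P040.drawing_points m n x b hx hbinj hab hEA hEB h3
  · intro m n x b hx hb hgen
    exact Vale.Agent.Lib.P040.collinear_class m n x b hx hb hgen

end Vale.Agent.Results.P040.TwoPageAndCollinear
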