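import Vale.Agent.Lib.P040.TP.Exact.Main

namespace Vale.Agent.Results.P040.TwoPageExact

/-- The two-page crossing number of `K_{m,n}` is `⌊m/2⌋⌊(m-1)/2⌋⌊n/2⌋⌊(n-1)/2⌋`, for every
`m` and every `n`.

A two-page drawing of `K_{m,n}` is given by points `r i` (the `m` vertices of the first class)
and `b j` (the `n` vertices of the second class) of a line, all `m + n` points distinct, and a
choice `page i j` of one of the two half-planes for each edge `(i, j)`. Two edges without a
common end point, drawn in the same half-plane, cross as soon as their end points interleave on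
the line (exactly one end point of the second edge lies strictly between the end points of the
first); the inner set below is the set of these unordered pairs of edges, and `c` runs over
the numbers of such pairs of all two-page drawings.

The theorem says that `⌊m/2⌋⌊(m-1)/2⌋⌊n/2⌋⌊(n-1)/2⌋` is the least of these numbers: it is
attained by some two-page drawing, and no two-page drawing has fewer. -/
theorem result (m n : ℕ) :
    IsLeast {c : ℕ | ∃ (r : Fin m → ℝ) (b : Fin n → ℝ) (page : Fin m → Fin n → Bool),
        Function.Injective r ∧ Function.Injective b ∧ (∀ i j, r i ≠ b j) ∧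
        c = Set.ncard {p : (Fin m × Fin n) × (Fin m × Fin n) |
          p.1.1 < p.2.1 ∧ p.1.2 ≠ p.2.2 ∧ page p.1.1 p.1.2 = page p.2.1 p.2.2 ∧
            ((min (r p.1.1) (b p.1.2) < r p.2.1 ∧ r p.2.1 < max (r p.1.1) (b p.1.2)) ↔
              ¬ (min (r p.1.1) (b p.1.2) < b p.2.2 ∧ b p.2.2 < max (r p.1.1) (b p.1.2)))}}
      ((m / 2) * ((m - 1) / 2) * ((n / 2) * ((n - 1) / 2))) := by
  constructor
  · obtain ⟨r, b, page, hr, hb, hrb, h⟩ := Vale.Agent.Lib.P040.TP.Exact.twoPage_exact m n
    exact ⟨r, b, page, hr, hb, hrb, h.symm⟩
  · rintro c ⟨r, b, page, hr, hb, hrb, rfl⟩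
    have h := Vale.Agent.Lib.P040.TP.Gen.twoPage_all m n r b page hr hb hrb
    rw [Nat.mul_comm]
    exact h

end Vale.Agent.Results.P040.TwoPageExact
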